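import Mathlib
import Vale.Agent.Lib.P243.Defs
import Vale.Agent.Lib.P243.R3.Defs
import Vale.Agent.Lib.P243.R3.helper25.M5

/-!
# P243-R3, module M6: every convex body has a calibration with constant below 3

Assembly (S2 of report 2129). `M6_exists_good_of` takes the interface statements M1f, M1g, M3a
and M4 (for the body `K`) as hypotheses, in the shapes of the skeleton; the M5 statements are
used from `helper25/M5.lean`.
-/

namespace Vale.Agent.Lib.P243.R3.H81

open MeasureTheory Set Vale.Agent.Lib.P243.R3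

theorem M6_aux_Ahat_zero (K : Set E3) : Ahat K 0 = 0 := by
  unfold Ahat
  rw [segment_same, Set.add_singleton]
  simp

theorem M6_aux_vol_pos {K : Set E3} (hK : Body K) : 0 < (volume K).toReal := by
  have h1 : 0 < volume K :=
    lt_of_lt_of_le (isOpen_interior.measure_pos volume hK.int) (measure_mono interior_subset)
  have h2 : volume K ≠ ⊤ := hK.compact.measure_lt_top.ne
  exact ENNReal.toReal_pos h1.ne' h2

theorem M6_aux_avg {b : E3 → ℝ} (hb : Continuous b) (ε : ℝ) (p q : E3) :
    avgSeg (fun x => 1 + ε * (1 - b x)) p q = 1 + ε - ε * avgSeg b p q := by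
  unfold avgSeg
  have hc : Continuous (fun t : ℝ => b (p + t • (q - p))) := hb.comp (by fun_prop)
  have h1 : ∀ t : ℝ, 1 + ε * (1 - b (p + t • (q - p))) = (1 + ε) - ε * b (p + t • (q - p)) :=
    fun t => by ring
  simp_rw [h1]
  rw [intervalIntegral.integral_sub intervalIntegrable_const
    ((hc.const_mul ε).intervalIntegrable _ _), intervalIntegral.integral_const,
    intervalIntegral.integral_const_mul]
  simp

theorem M6_aux_avg_mem {b : E3 → ℝ} (hb : Continuous b) (h01 : ∀ x, 0 ≤ b x ∧ b x ≤ 1)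
    (p q : E3) : 0 ≤ avgSeg b p q ∧ avgSeg b p q ≤ 1 := by
  unfold avgSeg
  have hc : Continuous (fun t : ℝ => b (p + t • (q - p))) := hb.comp (by fun_prop)
  constructor
  · exact intervalIntegral.integral_nonneg (by norm_num) (fun t _ => (h01 _).1)
  · have h := intervalIntegral.integral_mono_on (a := (0 : ℝ)) (b := 1) (by norm_num)
      (hc.intervalIntegrable (μ := volume) 0 1) (intervalIntegrable_const (c := (1 : ℝ)))
      (fun t _ => (h01 _).2)
    simpa using h

theorem M6_aux_int {K : Set E3} (hK : Body K) {b : E3 → ℝ} (hb : Continuous b)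
    (h01 : ∀ x, 0 ≤ b x ∧ b x ≤ 1) (ε : ℝ) :
    0 ≤ ∫ x in K, b x ∧ ∫ x in K, b x ≤ (volume K).toReal ∧
      ∫ x in K, (1 + ε * (1 - b x)) = (1 + ε) * (volume K).toReal - ε * ∫ x in K, b x := by
  have hfin : volume K ≠ ⊤ := hK.compact.measure_lt_top.ne
  have hbint : IntegrableOn b K volume := hb.continuousOn.integrableOn_compact hK.compact
  have hcint : ∀ c : ℝ, IntegrableOn (fun _ : E3 => c) K volume := fun c =>
    integrableOn_const hfin
  refine ⟨?_, ?_, ?_⟩
  · exact setIntegral_nonneg hK.compact.measurableSet (fun x _ => (h01 x).1)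
  · have h := setIntegral_mono_on hbint (hcint 1) hK.compact.measurableSet
      (fun x _ => (h01 x).2)
    simpa [Measure.real] using h
  · have h1 : ∀ x, 1 + ε * (1 - b x) = (1 + ε) - ε * b x := fun x => by ring
    simp_rw [h1]
    rw [integral_sub (hcint (1 + ε)) (hbint.const_mul ε), setIntegral_const, integral_const_mul]
    simp [Measure.real]
    ring

/-- Module M6 from its dependencies: `h1f` is M1f (continuity of `Ahat K`), `h1g` is M1g
(`Ahat K` is nonnegative), `h3a` is M3a (`Ahat K (q - p) ≤ 3 vol K` for `p, q ∈ K`), `h4` is M4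
(three segments meeting every efficient chord). -/
theorem M6_exists_good_of {K : Set E3} (hK : Body K)
    (h1f : Continuous (Ahat K)) (h1g : ∀ w : E3, 0 ≤ Ahat K w)
    (h3a : ∀ p ∈ K, ∀ q ∈ K, Ahat K (q - p) ≤ 3 * (volume K).toReal)
    (h4 : ∃ α β : Fin 3 → E3, (∀ j, α j ∈ K ∧ β j ∈ K) ∧
      ∀ p ∈ K, ∀ q ∈ K, p ≠ q → Ahat K (q - p) = 3 * (volume K).toReal →
        (p ∈ ⋃ j, segment ℝ (α j) (β j)) ∨ (q ∈ ⋃ j, segment ℝ (α j) (β j))) :
    ∃ (g : E3 → ℝ) (Θ : ℝ), 0 < Θ ∧ Θ < 3 ∧ Good K g Θ := by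
  obtain ⟨α, β, hαβ, hhit⟩ := h4
  set V : Set E3 := ⋃ j, segment ℝ (α j) (β j) with hV
  have hVne : V.Nonempty := ⟨α 0, Set.mem_iUnion.mpr ⟨0, left_mem_segment ℝ _ _⟩⟩
  set vK : ℝ := (volume K).toReal with hvK
  have hvpos : 0 < vK := M6_aux_vol_pos hK
  obtain ⟨C, hC0, hC⟩ := H25.M5c_bump_integral_le hK α β
  -- the diameter bound
  set D : ℝ := max 1 (Metric.diam K) with hD
  have hD1 : 1 ≤ D := le_max_left _ _
  have hDpos : 0 < D := by linarith
  have hdist : ∀ p ∈ K, ∀ q ∈ K, dist p q ≤ D := fun p hp q hq =>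
    le_trans (Metric.dist_le_diam_of_mem hK.compact.isBounded hp hq) (le_max_right _ _)
  -- the scale
  set τ : ℝ := min 1 (vK / (4 * D * (C + 1))) with hτ
  have hτpos : 0 < τ := lt_min one_pos (by positivity)
  have hτ1 : τ ≤ 1 := min_le_left _ _
  have hτD : τ ≤ D := by linarith
  have hτ2 : τ ≤ vK / (4 * D * (C + 1)) := min_le_right _ _
  set b : E3 → ℝ := bump V τ with hb
  have hbc : Continuous b := H25.M5a_bump_continuous hVne hτpos
  have hb01 : ∀ x, 0 ≤ b x ∧ b x ≤ 1 := fun x => H25.M5b_bump_mem V hτpos.le x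
  set βc : ℝ := τ / (2 * D) with hβ
  have hβpos : 0 < βc := by positivity
  have hβle : βc ≤ 1 / 2 := by
    rw [hβ, div_le_iff₀ (by positivity)]
    nlinarith
  -- the integral of the bump is small
  have hIb : ∫ x in K, b x ≤ vK * (βc / 2) := by
    have h1 := hC τ hτpos hτ1
    have h2 : C * τ ≤ vK / (4 * D) := by
      have h3 : τ * (4 * D * (C + 1)) ≤ vK := by
        rwa [le_div_iff₀ (by positivity)] at hτ2
      rw [le_div_iff₀ (by positivity)]
      nlinarith [mul_nonneg hτpos.le hDpos.le]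
    have h4 : C * τ ^ 2 ≤ vK / (4 * D) * τ := by
      have := mul_le_mul_of_nonneg_right h2 hτpos.le
      nlinarith
    have h5 : vK / (4 * D) * τ = vK * (βc / 2) := by
      rw [hβ]; field_simp; ring
    linarith
  -- the bound and continuity of the sweep functional
  set M : ℝ := 3 * vK with hM
  have hMpos : 0 < M := by positivity
  have hA_le : ∀ p ∈ K, ∀ q ∈ K, Ahat K (q - p) ≤ M := fun p hp q hq =>
    h3a p hp q hq
  have hA_nn : ∀ p q : E3, 0 ≤ Ahat K (q - p) := fun p q => h1g _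
  have hAcont : Continuous (fun pq : E3 × E3 => Ahat K (pq.2 - pq.1)) :=
    h1f.comp (continuous_snd.sub continuous_fst)
  have hBcont : Continuous (fun pq : E3 × E3 => avgSeg b pq.1 pq.2) :=
    H25.M5f_avgSeg_continuous hbc
  -- efficient pairs have a large chord average
  have heff : ∀ p ∈ K, ∀ q ∈ K, Ahat K (q - p) = M → βc ≤ avgSeg b p q := by
    intro p hp q hq hpq
    have hne : p ≠ q := by
      rintro rfl
      rw [sub_self, M6_aux_Ahat_zero] at hpq
      linarith
    rcases hhit p hp q hq hne hpq with h | h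
    · exact H25.M5d_avg_bump_ge h q hτpos hτD (hdist p hp q hq)
    · rw [H25.M5e_avgSeg_symm]
      exact H25.M5d_avg_bump_ge h p hτpos hτD (hdist q hq p hp)
  -- the compact set of pairs with small chord average
  set W : Set (E3 × E3) := (K ×ˢ K) ∩ {pq | avgSeg b pq.1 pq.2 ≤ 3 * βc / 4} with hW
  have hWc : IsCompact W :=
    (hK.compact.prod hK.compact).inter_right (isClosed_le hBcont continuous_const)
  obtain ⟨η, hηpos, hη⟩ : ∃ η : ℝ, 0 < η ∧ ∀ pq ∈ W, Ahat K (pq.2 - pq.1) ≤ M - η := by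
    rcases W.eq_empty_or_nonempty with hemp | hne
    · exact ⟨1, one_pos, fun pq hpq => by rw [hemp] at hpq; exact absurd hpq (Set.notMem_empty _)⟩
    · obtain ⟨pq0, hpq0, hmax⟩ := hWc.exists_isMaxOn hne hAcont.continuousOn
      have hlt : Ahat K (pq0.2 - pq0.1) < M := by
        have hle := hA_le pq0.1 hpq0.1.1 pq0.2 hpq0.1.2
        rcases hle.lt_or_eq with h | h
        · exact h
        · have h1 := heff pq0.1 hpq0.1.1 pq0.2 hpq0.1.2 h
          have h2 : avgSeg b pq0.1 pq0.2 ≤ 3 * βc / 4 := hpq0.2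
          linarith
      refine ⟨M - Ahat K (pq0.2 - pq0.1), by linarith, fun pq hpq => ?_⟩
      have := isMaxOn_iff.mp hmax pq hpq
      linarith
  -- the perturbation size
  set ε : ℝ := min 1 (η / (2 * M)) with hε
  have hεpos : 0 < ε := lt_min one_pos (by positivity)
  have hε1 : ε ≤ 1 := min_le_left _ _
  have hεM : ε * M ≤ η / 2 := by
    have h1 : ε ≤ η / (2 * M) := min_le_right _ _
    rw [le_div_iff₀ (by positivity)] at h1
    linarith
  set g : E3 → ℝ := fun x => 1 + ε * (1 - b x) with hg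
  obtain ⟨hI0, hI1, hIg⟩ := M6_aux_int hK hbc hb01 ε
  set Ib : ℝ := ∫ x in K, b x with hIbdef
  set Θ : ℝ := max (3 - η / (2 * vK)) (3 * (1 - ε * βc / 8)) with hΘ
  have hεβ : ε * βc ≤ 1 / 2 := by nlinarith
  have hΘpos : 0 < Θ := lt_of_lt_of_le (by nlinarith) (le_max_right _ _)
  have hΘ3 : Θ < 3 := by
    apply max_lt
    · have : 0 < η / (2 * vK) := by positivity
      linarith
    · have : 0 < ε * βc := by positivity
      linarith
  have hΘ1 : 3 - η / (2 * vK) ≤ Θ := le_max_left _ _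
  have hΘ2 : 3 * (1 - ε * βc / 8) ≤ Θ := le_max_right _ _
  have hIgpos : vK ≤ (1 + ε) * vK - ε * Ib := by nlinarith
  refine ⟨g, Θ, hΘpos, hΘ3, ?_, ?_, ?_⟩
  · exact continuous_const.add (continuous_const.mul (continuous_const.sub hbc))
  · intro x
    have h := hb01 x
    constructor
    · have : 0 ≤ ε * (1 - b x) := mul_nonneg hεpos.le (by linarith)
      simp only [hg]; linarith
    · have : ε * (1 - b x) ≤ 1 * 1 := mul_le_mul hε1 (by linarith) (by linarith) zero_le_one
      simp only [hg]; linarith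
  · intro p hp q hq
    rw [hIg, M6_aux_avg hbc ε p q]
    obtain ⟨hB0, hB1⟩ := M6_aux_avg_mem hbc hb01 p q
    set B : ℝ := avgSeg b p q with hBdef
    set A : ℝ := Ahat K (q - p) with hAdef
    have hA0 : 0 ≤ A := hA_nn p q
    have hAM : A ≤ M := hA_le p hp q hq
    have hεB0 : 0 ≤ ε * B := mul_nonneg hεpos.le hB0
    have hεB1 : ε * B ≤ ε := by
      have := mul_le_mul_of_nonneg_left hB1 hεpos.le
      linarith
    have hεη : 0 ≤ ε * η := mul_nonneg hεpos.le hηpos.le
    by_cases hmem : B ≤ 3 * βc / 4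
    · -- the pair lies in `W`
      have hAη : A ≤ M - η := hη (p, q) ⟨⟨hp, hq⟩, hmem⟩
      have h1 : (1 + ε - ε * B) * A ≤ (1 + ε) * A :=
        mul_le_mul_of_nonneg_right (by linarith) hA0
      have h2 : (1 + ε) * A ≤ (1 + ε) * (M - η) :=
        mul_le_mul_of_nonneg_left hAη (by linarith)
      have h3 : (1 + ε) * (M - η) ≤ M - η / 2 := by linarith
      have h4 : M - η / 2 ≤ Θ * vK := by
        have h5 : (3 - η / (2 * vK)) * vK = M - η / 2 := by
          rw [hM]; field_simp
        have h6 := mul_le_mul_of_nonneg_right hΘ1 hvpos.le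
        linarith
      have h7 : Θ * vK ≤ Θ * ((1 + ε) * vK - ε * Ib) :=
        mul_le_mul_of_nonneg_left hIgpos hΘpos.le
      linarith
    · -- the pair lies outside `W`
      have hB : 3 * βc / 4 < B := not_le.mp hmem
      have h1 : (1 + ε - ε * B) * A ≤ (1 + ε - ε * B) * M :=
        mul_le_mul_of_nonneg_left hAM (by linarith)
      have hεB : ε * (3 * βc / 4) ≤ ε * B := mul_le_mul_of_nonneg_left hB.le hεpos.le
      have h2 : (1 + ε - ε * B) * M ≤ (1 + ε - ε * (3 * βc / 4)) * M :=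
        mul_le_mul_of_nonneg_right (by linarith) hMpos.le
      have hεI : ε * Ib ≤ ε * (vK * (βc / 2)) := mul_le_mul_of_nonneg_left hIb hεpos.le
      have h3 : (1 + ε - ε * βc / 2) * vK ≤ (1 + ε) * vK - ε * Ib := by linarith
      have h4 : Θ * ((1 + ε - ε * βc / 2) * vK) ≤ Θ * ((1 + ε) * vK - ε * Ib) :=
        mul_le_mul_of_nonneg_left h3 hΘpos.le
      have h5 : (1 + ε - ε * (3 * βc / 4)) * M
          ≤ 3 * (1 - ε * βc / 8) * ((1 + ε - ε * βc / 2) * vK) := by
        have hx : (ε * βc / 8) * (1 + ε - ε * βc / 2) ≤ (ε * βc / 8) * 2 :=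
          mul_le_mul_of_nonneg_left (by nlinarith [mul_pos hεpos hβpos]) (by positivity)
        have h6 : 3 * (1 + ε - ε * (3 * βc / 4))
            ≤ 3 * (1 - ε * βc / 8) * (1 + ε - ε * βc / 2) := by linarith [hx]
        have h7 := mul_le_mul_of_nonneg_right h6 hvpos.le
        calc (1 + ε - ε * (3 * βc / 4)) * M
            = 3 * (1 + ε - ε * (3 * βc / 4)) * vK := by rw [hM]; ring
          _ ≤ 3 * (1 - ε * βc / 8) * (1 + ε - ε * βc / 2) * vK := h7
          _ = 3 * (1 - ε * βc / 8) * ((1 + ε - ε * βc / 2) * vK) := by ring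
      have h8 : 3 * (1 - ε * βc / 8) * ((1 + ε - ε * βc / 2) * vK)
          ≤ Θ * ((1 + ε - ε * βc / 2) * vK) := by
        have h9 : 0 ≤ 1 + ε - ε * βc / 2 := by linarith
        exact mul_le_mul_of_nonneg_right hΘ2 (mul_nonneg h9 hvpos.le)
      linarith

end Vale.Agent.Lib.P243.R3.H81
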